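import Mathlib

set_option autoImplicit false

namespace Crest.Agent.S0505Aux

/-- `t = ⌈√n⌉₊` satisfies `n ≤ t * t`. -/
theorem le_ceil_sqrt_sq (n : ℕ) : n ≤ ⌈Real.sqrt n⌉₊ * ⌈Real.sqrt n⌉₊ := by
  have h1 : Real.sqrt n ≤ (⌈Real.sqrt n⌉₊ : ℝ) := Nat.le_ceil _
  have h0 : 0 ≤ Real.sqrt n := Real.sqrt_nonneg _
  have h2 : (n : ℝ) = Real.sqrt n * Real.sqrt n := (Real.mul_self_sqrt (Nat.cast_nonneg n)).symm
  have h3 : (n : ℝ) ≤ (⌈Real.sqrt n⌉₊ : ℝ) * (⌈Real.sqrt n⌉₊ : ℝ) :=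
    le_trans h2.le (mul_le_mul h1 h1 h0 (le_trans h0 h1))
  exact_mod_cast h3

theorem ceil_sqrt_pos (n : ℕ) (hn : 1 ≤ n) : 1 ≤ ⌈Real.sqrt n⌉₊ := by
  have : 0 < Real.sqrt n := Real.sqrt_pos.mpr (by exact_mod_cast hn)
  exact Nat.ceil_pos.mpr this

/-- `t - 1 < √n`, i.e. `(t : ℝ) ≤ √n + 1`. -/
theorem ceil_sqrt_le (n : ℕ) : (⌈Real.sqrt n⌉₊ : ℝ) ≤ Real.sqrt n + 1 :=
  (Nat.ceil_lt_add_one (Real.sqrt_nonneg _)).le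

/-- `r = ⌈n / t⌉₊ ≤ t`. -/
theorem ceil_div_le (n : ℕ) : ⌈(n : ℝ) / ⌈Real.sqrt n⌉₊⌉₊ ≤ ⌈Real.sqrt n⌉₊ := by
  rcases Nat.eq_zero_or_pos n with h | h
  · subst h; simp
  have ht : 1 ≤ ⌈Real.sqrt n⌉₊ := ceil_sqrt_pos n h
  have ht' : (0 : ℝ) < (⌈Real.sqrt n⌉₊ : ℝ) := by exact_mod_cast ht
  apply Nat.ceil_le.mpr
  rw [div_le_iff₀ ht']
  exact_mod_cast le_ceil_sqrt_sq n

theorem le_ceil_div_mul (n : ℕ) (hn : 1 ≤ n) :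
    n ≤ ⌈(n : ℝ) / ⌈Real.sqrt n⌉₊⌉₊ * ⌈Real.sqrt n⌉₊ := by
  have ht : 1 ≤ ⌈Real.sqrt n⌉₊ := ceil_sqrt_pos n hn
  have ht' : (0 : ℝ) < (⌈Real.sqrt n⌉₊ : ℝ) := by exact_mod_cast ht
  have h1 : (n : ℝ) / ⌈Real.sqrt n⌉₊ ≤ (⌈(n : ℝ) / ⌈Real.sqrt n⌉₊⌉₊ : ℝ) := Nat.le_ceil _
  rw [div_le_iff₀ ht'] at h1
  exact_mod_cast h1

theorem ceil_div_pos (n : ℕ) (hn : 1 ≤ n) : 1 ≤ ⌈(n : ℝ) / ⌈Real.sqrt n⌉₊⌉₊ := by
  have ht : 1 ≤ ⌈Real.sqrt n⌉₊ := ceil_sqrt_pos n hn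
  have ht' : (0 : ℝ) < (⌈Real.sqrt n⌉₊ : ℝ) := by exact_mod_cast ht
  apply Nat.ceil_pos.mpr
  have : (0 : ℝ) < n := by exact_mod_cast hn
  positivity

theorem pred_ceil_div_mul_lt (n : ℕ) (hn : 1 ≤ n) :
    (⌈(n : ℝ) / ⌈Real.sqrt n⌉₊⌉₊ - 1) * ⌈Real.sqrt n⌉₊ < n := by
  have ht : 1 ≤ ⌈Real.sqrt n⌉₊ := ceil_sqrt_pos n hn
  have ht' : (0 : ℝ) < (⌈Real.sqrt n⌉₊ : ℝ) := by exact_mod_cast ht
  have hr : 1 ≤ ⌈(n : ℝ) / ⌈Real.sqrt n⌉₊⌉₊ := ceil_div_pos n hn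
  have h1 : (⌈(n : ℝ) / ⌈Real.sqrt n⌉₊⌉₊ : ℝ) < (n : ℝ) / ⌈Real.sqrt n⌉₊ + 1 :=
    Nat.ceil_lt_add_one (by positivity)
  have h2 : ((⌈(n : ℝ) / ⌈Real.sqrt n⌉₊⌉₊ - 1 : ℕ) : ℝ) < (n : ℝ) / ⌈Real.sqrt n⌉₊ := by
    rw [Nat.cast_sub hr]; push_cast; linarith
  rw [lt_div_iff₀ ht'] at h2
  exact_mod_cast h2

theorem ceil_sqrt_two : ⌈Real.sqrt ((2 : ℕ) : ℝ)⌉₊ = 2 := by
  have h1 : (1 : ℝ) < Real.sqrt ((2 : ℕ) : ℝ) := by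
    rw [show (1 : ℝ) = Real.sqrt 1 by simp]
    exact Real.sqrt_lt_sqrt (by norm_num) (by norm_num)
  have h2 : Real.sqrt ((2 : ℕ) : ℝ) ≤ 2 := by
    rw [show (2 : ℝ) = Real.sqrt 4 by
      rw [show (4 : ℝ) = 2 ^ 2 by norm_num]; simp]
    exact Real.sqrt_le_sqrt (by norm_num)
  rw [Nat.ceil_eq_iff (by norm_num)]
  constructor
  · simpa using h1
  · simpa using h2

/-- The arithmetic half of S0505. -/
theorem size_bound (n : ℕ) (hn : 2 ≤ n) :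
    ((2 * n ^ 3 + ⌈(n : ℝ) / ⌈Real.sqrt n⌉₊⌉₊ * n ^ 2 +
          ⌈(n : ℝ) / ⌈Real.sqrt n⌉₊⌉₊ * n ^ (⌈Real.sqrt n⌉₊ + 1) +
          n ^ (⌈(n : ℝ) / ⌈Real.sqrt n⌉₊⌉₊ - 1) + 1 : ℕ) : ℝ) ≤ (n : ℝ) ^ (Real.sqrt n + 4) := by
  rcases Nat.lt_or_ge n 3 with h3 | h3
  · -- n = 2
    have h2 : n = 2 := by omega
    subst h2
    rw [ceil_sqrt_two]
    have hr : ⌈((2 : ℕ) : ℝ) / ((2 : ℕ) : ℝ)⌉₊ = 1 := by norm_num
    rw [hr]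
    have h1 : (1 : ℝ) ≤ Real.sqrt ((2 : ℕ) : ℝ) := by
      rw [show (1 : ℝ) = Real.sqrt 1 by simp]
      exact Real.sqrt_le_sqrt (by norm_num)
    have h5 : ((2 : ℕ) : ℝ) ^ ((5 : ℕ) : ℝ) ≤ ((2 : ℕ) : ℝ) ^ (Real.sqrt ((2 : ℕ) : ℝ) + 4) := by
      apply Real.rpow_le_rpow_of_exponent_le (by norm_num)
      have : ((5 : ℕ) : ℝ) = 5 := by norm_num
      rw [this]; linarith
    rw [Real.rpow_natCast] at h5
    refine le_trans ?_ h5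
    norm_num
  · -- n ≥ 3
    set t := ⌈Real.sqrt n⌉₊ with ht
    set r := ⌈(n : ℝ) / t⌉₊ with hr
    have hn1 : 1 ≤ n := by omega
    have ht1 : 1 ≤ t := ceil_sqrt_pos n hn1
    have hrt : r ≤ t := ceil_div_le n
    have hr1 : 1 ≤ r := ceil_div_pos n hn1
    have hnR : (3 : ℝ) ≤ (n : ℝ) := by exact_mod_cast h3
    have hn0 : (0 : ℝ) < (n : ℝ) := by linarith
    have hn1R : (1 : ℝ) ≤ (n : ℝ) := by linarith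
    have hs1 : (1 : ℝ) ≤ Real.sqrt n := by
      rw [show (1 : ℝ) = Real.sqrt 1 by simp]
      exact Real.sqrt_le_sqrt hn1R
    have htle : (t : ℝ) ≤ Real.sqrt n + 1 := ceil_sqrt_le n
    set A : ℝ := (n : ℝ) ^ Real.sqrt n with hA
    have hA3 : (3 : ℝ) ≤ A := by
      have : (n : ℝ) ^ (1 : ℝ) ≤ (n : ℝ) ^ Real.sqrt n :=
        Real.rpow_le_rpow_of_exponent_le hn1R hs1
      rw [Real.rpow_one] at this
      linarith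
    -- t ≤ n
    have htn : t ≤ n := by
      -- √n + 1 ≤ n for n ≥ 3 ; use t - 1 < √n ≤ n/ ... simpler: (t-1)^2 < n
      by_contra hcon
      rw [not_le] at hcon
      have h1 : (n : ℝ) + 1 ≤ (t : ℝ) := by exact_mod_cast hcon
      have h2 : (n : ℝ) ≤ Real.sqrt n := by linarith
      have h3' : Real.sqrt n * Real.sqrt n = n := Real.mul_self_sqrt hn0.le
      nlinarith
    -- n ^ t ≤ n * A
    have hpow_t : (n : ℝ) ^ t ≤ n * A := by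
      have : (n : ℝ) ^ ((t : ℕ) : ℝ) ≤ (n : ℝ) ^ (Real.sqrt n + 1) :=
        Real.rpow_le_rpow_of_exponent_le hn1R htle
      rw [Real.rpow_natCast, Real.rpow_add hn0, Real.rpow_one] at this
      linarith
    have hpow_r : (n : ℝ) ^ (r - 1) ≤ A := by
      have h1 : ((r - 1 : ℕ) : ℝ) ≤ Real.sqrt n := by
        have : ((r - 1 : ℕ) : ℝ) = (r : ℝ) - 1 := by
          rw [Nat.cast_sub hr1]; simp
        rw [this]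
        have : (r : ℝ) ≤ (t : ℝ) := by exact_mod_cast hrt
        linarith
      have : (n : ℝ) ^ ((r - 1 : ℕ) : ℝ) ≤ (n : ℝ) ^ Real.sqrt n :=
        Real.rpow_le_rpow_of_exponent_le hn1R h1
      rwa [Real.rpow_natCast] at this
    have hrn : (r : ℝ) ≤ (n : ℝ) := by exact_mod_cast le_trans hrt htn
    have hr0 : (0 : ℝ) ≤ (r : ℝ) := Nat.cast_nonneg _
    have hgoal : (n : ℝ) ^ (Real.sqrt n + 4) = A * (n : ℝ) ^ 4 := by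
      rw [Real.rpow_add hn0]
      congr 1
      rw [show (4 : ℝ) = ((4 : ℕ) : ℝ) by norm_num, Real.rpow_natCast]
    rw [hgoal]
    push_cast
    have hA0 : 0 < A := by linarith
    have e1 : (r : ℝ) * (n : ℝ) ^ 2 ≤ (n : ℝ) ^ 3 := by
      have : (r : ℝ) * (n : ℝ) ^ 2 ≤ (n : ℝ) * (n : ℝ) ^ 2 :=
        mul_le_mul_of_nonneg_right hrn (by positivity)
      calc (r : ℝ) * (n : ℝ) ^ 2 ≤ (n : ℝ) * (n : ℝ) ^ 2 := this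
        _ = (n : ℝ) ^ 3 := by ring
    have e2 : (r : ℝ) * (n : ℝ) ^ (t + 1) ≤ A * (n : ℝ) ^ 3 := by
      have h1 : (n : ℝ) ^ (t + 1) ≤ (n * A) * n := by
        rw [pow_succ]
        exact mul_le_mul_of_nonneg_right hpow_t hn0.le
      calc (r : ℝ) * (n : ℝ) ^ (t + 1) ≤ (n : ℝ) * ((n * A) * n) :=
            mul_le_mul hrn h1 (by positivity) hn0.le
        _ = A * (n : ℝ) ^ 3 := by ring
    have hn3 : (27 : ℝ) ≤ (n : ℝ) ^ 3 := by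
      have : (3 : ℝ) ^ 3 ≤ (n : ℝ) ^ 3 := pow_le_pow_left₀ (by norm_num) hnR 3
      linarith
    have e4 : A * (n : ℝ) ^ 4 = A * (n : ℝ) ^ 3 * n := by ring
    have e5 : A * (n : ℝ) ^ 3 * 3 ≤ A * (n : ℝ) ^ 3 * n :=
      mul_le_mul_of_nonneg_left hnR (by positivity)
    have e6 : 3 * (n : ℝ) ^ 3 ≤ A * (n : ℝ) ^ 3 :=
      mul_le_mul_of_nonneg_right hA3 (by positivity)
    have e7 : A * 27 ≤ A * (n : ℝ) ^ 3 := mul_le_mul_of_nonneg_left hn3 hA0.le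
    nlinarith
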