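import Mathlib
import Crest.Prelude.Def_SPSPS

set_option autoImplicit false

namespace Crest.Agent.S0505Aux.Core56

open MvPolynomial Crest.ArithCircuit

section Mat

variable {A : Type*} [CommSemiring A] {n : ℕ}

/-- product `N a * N (a+1) * ... * N (a+len-1)` -/
def pf (N : ℕ → Matrix (Fin n) (Fin n) A) : ℕ → ℕ → Matrix (Fin n) (Fin n) A
  | _, 0 => 1
  | a, len + 1 => N a * pf N (a + 1) len

theorem pf_eq (N : ℕ → Matrix (Fin n) (Fin n) A) (a len : ℕ) :
    pf N a len = ((List.range' a len).map N).prod := by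
  induction len generalizing a with
  | zero => simp [pf]
  | succ len ih => simp [pf, List.range'_succ, ih]

theorem pf_add (N : ℕ → Matrix (Fin n) (Fin n) A) (a l1 l2 : ℕ) :
    pf N a (l1 + l2) = pf N a l1 * pf N (a + l1) l2 := by
  induction l1 generalizing a with
  | zero => simp [pf]
  | succ l1 ih =>
    have h1 : l1 + 1 + l2 = (l1 + l2) + 1 := by omega
    have h2 : a + (l1 + 1) = a + 1 + l1 := by omega
    rw [h1, h2]
    simp only [pf]
    rw [ih, Matrix.mul_assoc]

theorem pf_blocks (N : ℕ → Matrix (Fin n) (Fin n) A) (t a r : ℕ) :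
    pf N (a * t) (r * t) = pf (fun c => pf N (c * t) t) a r := by
  induction r generalizing a with
  | zero => simp [pf]
  | succ r ih =>
    have h1 : (r + 1) * t = t + r * t := by ring
    have h2 : a * t + t = (a + 1) * t := by ring
    rw [h1, pf_add, h2, ih]
    simp only [pf]

theorem pf_one (N : ℕ → Matrix (Fin n) (Fin n) A) (a len : ℕ) (h : ∀ k, a ≤ k → N k = 1) :
    pf N a len = 1 := by
  induction len generalizing a with
  | zero => simp [pf]
  | succ len ih =>
    simp only [pf]
    rw [h a le_rfl, ih (a + 1) (fun k hk => h k (by omega)), Matrix.mul_one]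

theorem pf_congr (N N' : ℕ → Matrix (Fin n) (Fin n) A) (a len : ℕ)
    (h : ∀ k, a ≤ k → k < a + len → N k = N' k) :
    pf N a len = pf N' a len := by
  induction len generalizing a with
  | zero => simp [pf]
  | succ len ih =>
    simp only [pf]
    rw [h a le_rfl (by omega), ih (a + 1) (fun k hk hk' => h k (by omega) (by omega))]

/-- the steps of a path `i → v 0 → ... → v (len-1) → j`, numbered from `a`. -/
def steps (n : ℕ) : (len : ℕ) → ℕ → Fin n → (Fin len → Fin n) → Fin n →
    Multiset (ℕ × Fin n × Fin n)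
  | 0, a, i, _, j => {(a, i, j)}
  | len + 1, a, i, v, j => (a, i, v 0) ::ₘ steps n len (a + 1) (v 0) (Fin.tail v) j

/-- the step numbers -/
def fsts : ℕ → ℕ → Multiset ℕ
  | 0, a => {a}
  | len + 1, a => a ::ₘ fsts len (a + 1)

theorem steps_fst (len a : ℕ) (i : Fin n) (v : Fin len → Fin n) (j : Fin n) :
    (steps n len a i v j).map Prod.fst = fsts len a := by
  induction len generalizing a i with
  | zero => simp [steps, fsts]
  | succ len ih => simp [steps, fsts, ih]

theorem pf_apply (N : ℕ → Matrix (Fin n) (Fin n) A) (len a : ℕ) (i j : Fin n) :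
    pf N a (len + 1) i j =
      ∑ v : Fin len → Fin n, ((steps n len a i v j).map (fun s => N s.1 s.2.1 s.2.2)).prod := by
  induction len generalizing a i with
  | zero => simp [pf, steps]
  | succ len ih =>
    have h0 : pf N a (len + 1 + 1) = N a * pf N (a + 1) (len + 1) := rfl
    rw [h0, Matrix.mul_apply]
    rw [← (Fin.consEquiv (fun _ : Fin (len + 1) => Fin n)).sum_comp, Fintype.sum_prod_type]
    refine Finset.sum_congr rfl (fun x _ => ?_)
    rw [ih, Finset.mul_sum]
    refine Finset.sum_congr rfl (fun v _ => ?_)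
    simp [steps, Fin.consEquiv]

end Mat

section Circ

/-- total index map -/
def toFin (n : ℕ) [NeZero n] (k : ℕ) : Fin n := ⟨k % n, Nat.mod_lt _ (NeZero.pos n)⟩

theorem toFin_val (n : ℕ) [NeZero n] (k : Fin n) : toFin n k.val = k :=
  Fin.ext (Nat.mod_eq_of_lt k.isLt)

theorem val_toFin (n : ℕ) [NeZero n] (k : ℕ) (h : k < n) : (toFin n k).val = k :=
  Nat.mod_eq_of_lt h

variable (K : Type*) [Field K] (n T Q : ℕ) [NeZero n]

/-- the block circuit on structured index types -/
noncomputable def circ : SPSPS K (Fin n × Fin n × Fin n) (Fin n × Fin n × Fin n)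
    (Fin n × Fin n × Fin n) (Fin (Q + 1) × Fin n × Fin n × (Fin T → Fin n))
    (Fin (Q + 1) × Fin n × Fin n) (Fin Q → Fin n) where
  leaf l := Sum.inl l
  inB b := {b}
  coefB _ _ := 1
  inP p := ((steps n T (p.1.val * (T + 1)) p.2.1 p.2.2.2 p.2.2.1).filter (fun s => s.1 < n)).map
    (fun s => (toFin n s.1, s.2.1, s.2.2))
  inS s := Finset.univ.image (fun v => (s.1, s.2.1, s.2.2, v))
  coefS _ p := (((steps n T (p.1.val * (T + 1)) p.2.1 p.2.2.2 p.2.2.1).filter
    (fun s => ¬ s.1 < n)).map (fun s => (1 : Matrix (Fin n) (Fin n) K) s.2.1 s.2.2)).prod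
  inR w := (steps n Q 0 0 w 0).map (fun s => (toFin (Q + 1) s.1, s.2.1, s.2.2))
  inOut := Finset.univ
  coefOut _ := 1

/-- the padded sequence of matrices -/
noncomputable def Mp (k : ℕ) : Matrix (Fin n) (Fin n) (MvPolynomial (Fin n × Fin n × Fin n) K) :=
  if k < n then varMatrix K n (toFin n k) else 1

theorem valB_circ (b : Fin n × Fin n × Fin n) : (circ K n T Q).valB b = X b := by
  simp [SPSPS.valB, circ, SPSPS.leafVal]

theorem split_prod (s : Multiset (ℕ × Fin n × Fin n)) :
    ((s.filter (fun s => ¬ s.1 < n)).map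
        (fun s => (1 : Matrix (Fin n) (Fin n) K) s.2.1 s.2.2)).prod •
      ((s.filter (fun s => s.1 < n)).map
        (fun s => (X (toFin n s.1, s.2.1, s.2.2) : MvPolynomial (Fin n × Fin n × Fin n) K))).prod
      = (s.map (fun s => Mp K n s.1 s.2.1 s.2.2)).prod := by
  induction s using Multiset.induction_on with
  | empty => simp
  | cons a s ih =>
    rw [Multiset.map_cons, Multiset.prod_cons, ← ih]
    by_cases h : a.1 < n
    · rw [Multiset.filter_cons_of_pos (p := fun s : ℕ × Fin n × Fin n => s.1 < n) s h,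
        Multiset.filter_cons_of_neg (p := fun s : ℕ × Fin n × Fin n => ¬ s.1 < n) s (not_not.mpr h),
        Multiset.map_cons, Multiset.prod_cons, mul_smul_comm]
      simp [Mp, h, varMatrix]
    · rw [Multiset.filter_cons_of_neg (p := fun s : ℕ × Fin n × Fin n => s.1 < n) s h,
        Multiset.filter_cons_of_pos (p := fun s : ℕ × Fin n × Fin n => ¬ s.1 < n) s h,
        Multiset.map_cons, Multiset.prod_cons, mul_smul]
      simp only [Mp, h, if_false, Matrix.one_apply]
      split_ifs <;> simp

theorem valP_circ (p : Fin (Q + 1) × Fin n × Fin n × (Fin T → Fin n)) :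
    (circ K n T Q).valP p =
      (((steps n T (p.1.val * (T + 1)) p.2.1 p.2.2.2 p.2.2.1).filter (fun s => s.1 < n)).map
        (fun s => (X (toFin n s.1, s.2.1, s.2.2) : MvPolynomial (Fin n × Fin n × Fin n) K))).prod := by
  unfold SPSPS.valP
  have : (circ K n T Q).valB = X := funext (valB_circ K n T Q)
  rw [this]
  simp [circ, Multiset.map_map]

theorem valS_circ (s : Fin (Q + 1) × Fin n × Fin n) :
    (circ K n T Q).valS s = pf (Mp K n) (s.1.val * (T + 1)) (T + 1) s.2.1 s.2.2 := by
  rw [pf_apply]
  unfold SPSPS.valS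
  have h1 : (circ K n T Q).inS s = Finset.univ.image (fun v => (s.1, s.2.1, s.2.2, v)) := rfl
  rw [h1, Finset.sum_image (by
    intro v _ v' _ h
    simpa using h)]
  refine Finset.sum_congr rfl (fun v _ => ?_)
  rw [valP_circ, ← split_prod]
  rfl

theorem output_circ_aux :
    (circ K n T Q).output = pf (Mp K n) 0 ((Q + 1) * (T + 1)) 0 0 := by
  have h0 : pf (Mp K n) 0 ((Q + 1) * (T + 1)) = pf (Mp K n) (0 * (T + 1)) ((Q + 1) * (T + 1)) := by
    rw [Nat.zero_mul]
  rw [h0, pf_blocks]
  rw [pf_congr _ (fun k => Matrix.of (fun x y => (circ K n T Q).valS (toFin (Q + 1) k, x, y))) 0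
    (Q + 1) (by
      intro k _ hk
      ext x y
      rw [Matrix.of_apply, valS_circ]
      simp only
      rw [val_toFin (Q + 1) k (by omega)])]
  rw [pf_apply]
  unfold SPSPS.output
  have h1 : (circ K n T Q).inOut = Finset.univ := rfl
  rw [h1]
  refine Finset.sum_congr rfl (fun w _ => ?_)
  have h2 : (circ K n T Q).coefOut w = 1 := rfl
  rw [h2, one_smul]
  unfold SPSPS.valR
  have h3 : (circ K n T Q).inR w =
    (steps n Q 0 0 w 0).map (fun s => (toFin (Q + 1) s.1, s.2.1, s.2.2)) := rfl
  rw [h3, Multiset.map_map]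
  rfl

theorem pf_Mp (h : n ≤ (Q + 1) * (T + 1)) :
    pf (Mp K n) 0 ((Q + 1) * (T + 1)) = (List.ofFn (varMatrix K n)).prod := by
  obtain ⟨e, he⟩ := Nat.exists_eq_add_of_le h
  rw [he, pf_add, pf_one (Mp K n) (0 + n) e (by
    intro k hk
    have : ¬ k < n := by omega
    simp [Mp, this]), Matrix.mul_one, pf_eq, ← List.range_eq_range', List.ofFn_eq_map,
    ← List.map_coe_finRange_eq_range, List.map_map]
  congr 1
  apply List.map_congr_left
  intro k _
  simp [Mp, toFin_val]

theorem eq_sup_of_const {α : Type*} (F : Finset α) (f : α → ℕ) (d : ℕ)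
    (h : ∀ q ∈ F, f q = d) (p : α) (hp : p ∈ F) : f p = F.sup f :=
  le_antisymm (Finset.le_sup hp) (Finset.sup_le (fun q hq => by rw [h q hq, h p hp]))

theorem degB_circ (b : Fin n × Fin n × Fin n) : (circ K n T Q).degB b = 1 := by
  simp [SPSPS.degB, circ, SPSPS.leafDeg]

theorem degP_circ (p : Fin (Q + 1) × Fin n × Fin n × (Fin T → Fin n)) :
    (circ K n T Q).degP p =
      Multiset.card ((fsts T (p.1.val * (T + 1))).filter (fun k => k < n)) := by
  unfold SPSPS.degP
  have : (circ K n T Q).degB = fun _ => 1 := funext (degB_circ K n T Q)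
  rw [this, ← steps_fst T (p.1.val * (T + 1)) p.2.1 p.2.2.2 p.2.2.1, Multiset.filter_map,
    Multiset.card_map]
  simp [circ, Function.comp_def]

theorem degS_circ' (s : Fin (Q + 1) × Fin n × Fin n)
    (p : Fin (Q + 1) × Fin n × Fin n × (Fin T → Fin n)) (hp : p ∈ (circ K n T Q).inS s) :
    (circ K n T Q).degP p = (circ K n T Q).degS s := by
  refine eq_sup_of_const _ _
    (Multiset.card ((fsts T (s.1.val * (T + 1))).filter (fun k => k < n))) ?_ p hp
  intro q hq
  rw [degP_circ]
  have h1 : (circ K n T Q).inS s = Finset.univ.image (fun v => (s.1, s.2.1, s.2.2, v)) := rfl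
  rw [h1, Finset.mem_image] at hq
  obtain ⟨v, _, rfl⟩ := hq
  rfl

theorem degS_circ (s : Fin (Q + 1) × Fin n × Fin n) :
    (circ K n T Q).degS s =
      Multiset.card ((fsts T (s.1.val * (T + 1))).filter (fun k => k < n)) := by
  have hp : ((s.1, s.2.1, s.2.2, fun _ => 0) : Fin (Q + 1) × Fin n × Fin n × (Fin T → Fin n)) ∈
      (circ K n T Q).inS s := by
    have h1 : (circ K n T Q).inS s = Finset.univ.image (fun v => (s.1, s.2.1, s.2.2, v)) := rfl
    rw [h1]
    exact Finset.mem_image_of_mem _ (Finset.mem_univ _)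
  rw [← degS_circ' K n T Q s _ hp, degP_circ]

theorem degR_circ (w : Fin Q → Fin n) :
    (circ K n T Q).degR w =
      ((fsts Q 0).map (fun k => Multiset.card
        ((fsts T ((toFin (Q + 1) k).val * (T + 1))).filter (fun k => k < n)))).sum := by
  unfold SPSPS.degR
  have : (circ K n T Q).degS = fun s => Multiset.card
      ((fsts T (s.1.val * (T + 1))).filter (fun k => k < n)) := funext (degS_circ K n T Q)
  rw [this, ← steps_fst Q 0 (0 : Fin n) w 0, Multiset.map_map]
  have h3 : (circ K n T Q).inR w =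
    (steps n Q 0 0 w 0).map (fun s => (toFin (Q + 1) s.1, s.2.1, s.2.2)) := rfl
  rw [h3, Multiset.map_map]
  rfl

theorem homog_circ : (circ K n T Q).IsHomogeneous := by
  refine ⟨?_, ?_, ?_⟩
  · intro b l _
    rw [degB_circ]
    rfl
  · intro s p hp
    exact degS_circ' K n T Q s p hp
  · intro w hw
    exact eq_sup_of_const _ _ _ (fun q _ => degR_circ K n T Q q) w hw

theorem output_circ (m : ℕ) (h : m + 1 ≤ (Q + 1) * (T + 1)) :
    (circ K (m + 1) T Q).output = imm K (m + 1) := by
  rw [output_circ_aux, pf_Mp K (m + 1) T Q h]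
  rfl

end Circ

section Transport

variable {K ι L B P S R L' B' P' S' R' : Type*} [CommSemiring K]

/-- transport of a circuit along equivalences of the index types -/
def transport (C : SPSPS K ι L B P S R) (eL : L ≃ L') (eB : B ≃ B') (eP : P ≃ P') (eS : S ≃ S')
    (eR : R ≃ R') : SPSPS K ι L' B' P' S' R' where
  leaf l := C.leaf (eL.symm l)
  inB b := (C.inB (eB.symm b)).map eL.toEmbedding
  coefB b l := C.coefB (eB.symm b) (eL.symm l)
  inP p := (C.inP (eP.symm p)).map eB
  inS s := (C.inS (eS.symm s)).map eP.toEmbedding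
  coefS s p := C.coefS (eS.symm s) (eP.symm p)
  inR r := (C.inR (eR.symm r)).map eS
  inOut := C.inOut.map eR.toEmbedding
  coefOut r := C.coefOut (eR.symm r)

variable (C : SPSPS K ι L B P S R) (eL : L ≃ L') (eB : B ≃ B') (eP : P ≃ P') (eS : S ≃ S')
    (eR : R ≃ R')

theorem t_leafVal (l : L') : (transport C eL eB eP eS eR).leafVal l = C.leafVal (eL.symm l) := rfl

theorem t_valB (b : B') : (transport C eL eB eP eS eR).valB b = C.valB (eB.symm b) := by
  simp [SPSPS.valB, transport, SPSPS.leafVal, Finset.sum_map]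

theorem t_valP (p : P') : (transport C eL eB eP eS eR).valP p = C.valP (eP.symm p) := by
  unfold SPSPS.valP
  have : (transport C eL eB eP eS eR).valB = fun b => C.valB (eB.symm b) :=
    funext (t_valB C eL eB eP eS eR)
  rw [this]
  simp [transport, Multiset.map_map, Function.comp_def]

theorem t_valS (s : S') : (transport C eL eB eP eS eR).valS s = C.valS (eS.symm s) := by
  unfold SPSPS.valS
  have : (transport C eL eB eP eS eR).valP = fun b => C.valP (eP.symm b) :=
    funext (t_valP C eL eB eP eS eR)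
  rw [this]
  simp [transport, Finset.sum_map]

theorem t_valR (r : R') : (transport C eL eB eP eS eR).valR r = C.valR (eR.symm r) := by
  unfold SPSPS.valR
  have : (transport C eL eB eP eS eR).valS = fun b => C.valS (eS.symm b) :=
    funext (t_valS C eL eB eP eS eR)
  rw [this]
  simp [transport, Multiset.map_map, Function.comp_def]

theorem t_output : (transport C eL eB eP eS eR).output = C.output := by
  unfold SPSPS.output
  have : (transport C eL eB eP eS eR).valR = fun b => C.valR (eR.symm b) :=
    funext (t_valR C eL eB eP eS eR)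
  rw [this]
  simp [transport, Finset.sum_map]

theorem t_leafDeg (l : L') : (transport C eL eB eP eS eR).leafDeg l = C.leafDeg (eL.symm l) := rfl

theorem t_degB (b : B') : (transport C eL eB eP eS eR).degB b = C.degB (eB.symm b) := by
  unfold SPSPS.degB
  have : (transport C eL eB eP eS eR).leafDeg = fun b => C.leafDeg (eL.symm b) :=
    funext (t_leafDeg C eL eB eP eS eR)
  rw [this]
  simp [transport, Finset.sup_map, Function.comp_def]

theorem t_degP (p : P') : (transport C eL eB eP eS eR).degP p = C.degP (eP.symm p) := by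
  unfold SPSPS.degP
  have : (transport C eL eB eP eS eR).degB = fun b => C.degB (eB.symm b) :=
    funext (t_degB C eL eB eP eS eR)
  rw [this]
  simp [transport, Multiset.map_map, Function.comp_def]

theorem t_degS (s : S') : (transport C eL eB eP eS eR).degS s = C.degS (eS.symm s) := by
  unfold SPSPS.degS
  have : (transport C eL eB eP eS eR).degP = fun b => C.degP (eP.symm b) :=
    funext (t_degP C eL eB eP eS eR)
  rw [this]
  simp [transport, Finset.sup_map, Function.comp_def]

theorem t_degR (r : R') : (transport C eL eB eP eS eR).degR r = C.degR (eR.symm r) := by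
  unfold SPSPS.degR
  have : (transport C eL eB eP eS eR).degS = fun b => C.degS (eS.symm b) :=
    funext (t_degS C eL eB eP eS eR)
  rw [this]
  simp [transport, Multiset.map_map, Function.comp_def]

theorem t_degOut : (transport C eL eB eP eS eR).degOut = C.degOut := by
  unfold SPSPS.degOut
  have : (transport C eL eB eP eS eR).degR = fun b => C.degR (eR.symm b) :=
    funext (t_degR C eL eB eP eS eR)
  rw [this]
  simp [transport, Finset.sup_map, Function.comp_def]

theorem t_homog (h : C.IsHomogeneous) : (transport C eL eB eP eS eR).IsHomogeneous := by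
  obtain ⟨h1, h2, h3⟩ := h
  refine ⟨?_, ?_, ?_⟩
  · intro b l hl
    rw [t_leafDeg, t_degB]
    apply h1
    have : l ∈ (C.inB (eB.symm b)).map eL.toEmbedding := hl
    rw [Finset.mem_map] at this
    obtain ⟨x, hx, rfl⟩ := this
    simpa using hx
  · intro b l hl
    rw [t_degP, t_degS]
    apply h2
    have : l ∈ (C.inS (eS.symm b)).map eP.toEmbedding := hl
    rw [Finset.mem_map] at this
    obtain ⟨x, hx, rfl⟩ := this
    simpa using hx
  · intro l hl
    rw [t_degR, t_degOut]
    apply h3
    have : l ∈ C.inOut.map eR.toEmbedding := hl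
    rw [Finset.mem_map] at this
    obtain ⟨x, hx, rfl⟩ := this
    simpa using hx

end Transport

theorem main (K : Type*) [Field K] (n : ℕ) (hn : 1 ≤ n) (T Q : ℕ) (h : n ≤ (Q + 1) * (T + 1)) :
    ∃ (l b p s r : ℕ)
      (C : SPSPS K (Fin n × Fin n × Fin n) (Fin l) (Fin b) (Fin p) (Fin s) (Fin r)),
      C.IsHomogeneous ∧ C.output = imm K n ∧
        C.size = 2 * n ^ 3 + (Q + 1) * n ^ 2 + (Q + 1) * n ^ (T + 1 + 1) + n ^ Q + 1 := by
  obtain ⟨m, rfl⟩ : ∃ m, n = m + 1 := ⟨n - 1, by omega⟩
  refine ⟨_, _, _, _, _, transport (circ K (m + 1) T Q) (Fintype.equivFin _) (Fintype.equivFin _)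
    (Fintype.equivFin _) (Fintype.equivFin _) (Fintype.equivFin _), ?_, ?_, ?_⟩
  · exact t_homog _ _ _ _ _ _ (homog_circ K (m + 1) T Q)
  · rw [t_output, output_circ K T Q m h]
  · simp only [SPSPS.size, Fintype.card_fin, Fintype.card_prod, Fintype.card_pi, Finset.prod_const,
      Finset.card_univ]
    ring

end Crest.Agent.S0505Aux.Core56
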