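import Crest.Agent.S0505Aux.Transport5
import Crest.Agent.S0505Aux.Arith90

/-!
Glue for S0505: from a homogeneous circuit on the structured index types
`L = B = Fin n × Fin n × Fin n`, `P = Fin r × Fin n × Fin n × (Fin t' → Fin n)`,
`S = Fin r × Fin n × Fin n`, `R = Fin r' → Fin n` (`t = t' + 1`, `r = r' + 1`) computing `imm K n`
to the exact conclusion of S0505 (transport to `Fin`, cardinalities, real size bound).
-/

set_option autoImplicit false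

namespace Crest.Agent.S0505Aux.Glue5

open Crest.ArithCircuit

universe u

theorem conclusion_of_structured (K : Type u) [Field K] (n : ℕ) (hn : 2 ≤ n) (t' r' : ℕ)
    (ht : ⌈Real.sqrt n⌉₊ = t' + 1) (hr : ⌈(n : ℝ) / ⌈Real.sqrt n⌉₊⌉₊ = r' + 1)
    (C : SPSPS K (Fin n × Fin n × Fin n) (Fin n × Fin n × Fin n) (Fin n × Fin n × Fin n)
      (Fin (r' + 1) × Fin n × Fin n × (Fin t' → Fin n)) (Fin (r' + 1) × Fin n × Fin n)
      (Fin r' → Fin n))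
    (hC : C.IsHomogeneous) (hout : C.output = imm K n) :
    ∃ (l b p s r : ℕ)
      (C : Crest.ArithCircuit.SPSPS K (Fin n × Fin n × Fin n) (Fin l) (Fin b) (Fin p) (Fin s) (Fin r)),
      C.IsHomogeneous ∧ C.output = Crest.ArithCircuit.imm K n ∧
        C.size ≤ 2 * n ^ 3 + ⌈(n : ℝ) / ⌈Real.sqrt n⌉₊⌉₊ * n ^ 2 +
          ⌈(n : ℝ) / ⌈Real.sqrt n⌉₊⌉₊ * n ^ (⌈Real.sqrt n⌉₊ + 1) +
          n ^ (⌈(n : ℝ) / ⌈Real.sqrt n⌉₊⌉₊ - 1) + 1 ∧
        (C.size : ℝ) ≤ (n : ℝ) ^ (Real.sqrt n + 4) := by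
  obtain ⟨C', h1, h2, h3⟩ := Transport5.exists_fin C hC
  have hsize : C'.size ≤ 2 * n ^ 3 + ⌈(n : ℝ) / ⌈Real.sqrt n⌉₊⌉₊ * n ^ 2 +
          ⌈(n : ℝ) / ⌈Real.sqrt n⌉₊⌉₊ * n ^ (⌈Real.sqrt n⌉₊ + 1) +
          n ^ (⌈(n : ℝ) / ⌈Real.sqrt n⌉₊⌉₊ - 1) + 1 := by
    rw [h3, hr, ht]
    simp only [Fintype.card_prod, Fintype.card_fin, Fintype.card_pi, Finset.prod_const,
      Finset.card_univ, Nat.add_sub_cancel]
    apply le_of_eq
    ring
  refine ⟨_, _, _, _, _, C', h1, h2.trans hout, hsize, ?_⟩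
  exact le_trans (by exact_mod_cast hsize) (size_bound n hn)

end Crest.Agent.S0505Aux.Glue5
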