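import Mathlib

/-!
# Arithmetic of the size bound of S0505   (helper35)

`t = ⌈√n⌉₊`, `r = ⌈n / t⌉₊`.  Basic facts on `t`, `r` and the inequality
`2n³ + r n² + r n^(t+1) + n^(r-1) + 1 ≤ n^(√n + 4)`.
-/

set_option autoImplicit false

namespace Crest.Agent.S0505Aux

/-- `t = ⌈√n⌉₊`. -/
noncomputable def tt (n : ℕ) : ℕ := ⌈Real.sqrt n⌉₊

/-- `r = ⌈n / t⌉₊`. -/
noncomputable def rr (n : ℕ) : ℕ := ⌈(n : ℝ) / ⌈Real.sqrt n⌉₊⌉₊

theorem sqrt_le_tt (n : ℕ) : Real.sqrt n ≤ (tt n : ℝ) := Nat.le_ceil _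

theorem tt_lt (n : ℕ) : (tt n : ℝ) < Real.sqrt n + 1 :=
  Nat.ceil_lt_add_one (Real.sqrt_nonneg _)

theorem two_le_tt (n : ℕ) (hn : 2 ≤ n) : 2 ≤ tt n := by
  have h1 : (1 : ℝ) < Real.sqrt n := by
    rw [Real.lt_sqrt (by norm_num)]
    have : (2 : ℝ) ≤ n := by exact_mod_cast hn
    linarith
  have h2 : (1 : ℝ) < (tt n : ℝ) := lt_of_lt_of_le h1 (sqrt_le_tt n)
  have h3 : 1 < tt n := by exact_mod_cast h2
  omega

theorem tt_le (n : ℕ) (hn : 1 ≤ n) : tt n ≤ n := by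
  unfold tt
  rw [Nat.ceil_le]
  have h1 : (1 : ℝ) ≤ n := by exact_mod_cast hn
  rw [Real.sqrt_le_left (by linarith)]
  nlinarith

theorem le_tt_sq (n : ℕ) : n ≤ tt n * tt n := by
  have h := sqrt_le_tt n
  have h0 : (0 : ℝ) ≤ Real.sqrt n := Real.sqrt_nonneg _
  have h2 : (n : ℝ) = Real.sqrt n * Real.sqrt n := (Real.mul_self_sqrt (Nat.cast_nonneg n)).symm
  have h3 : (n : ℝ) ≤ (tt n : ℝ) * (tt n : ℝ) := by
    rw [h2]; exact mul_le_mul h h h0 (le_trans h0 h)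
  exact_mod_cast h3

theorem rr_le_tt (n : ℕ) (hn : 2 ≤ n) : rr n ≤ tt n := by
  have ht : 2 ≤ tt n := two_le_tt n hn
  have htpos : (0 : ℝ) < (tt n : ℝ) := by
    have : 0 < tt n := by omega
    exact_mod_cast this
  unfold rr
  rw [Nat.ceil_le]
  change (n : ℝ) / (tt n : ℝ) ≤ (tt n : ℝ)
  rw [div_le_iff₀ htpos]
  exact_mod_cast le_tt_sq n

theorem one_le_rr (n : ℕ) (hn : 2 ≤ n) : 1 ≤ rr n := by
  have ht : 2 ≤ tt n := two_le_tt n hn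
  have htpos : (0 : ℝ) < (tt n : ℝ) := by
    have : 0 < tt n := by omega
    exact_mod_cast this
  unfold rr
  rw [Nat.one_le_iff_ne_zero, Ne, Nat.ceil_eq_zero, not_le]
  change 0 < (n : ℝ) / (tt n : ℝ)
  have : (0 : ℝ) < n := by
    have : 0 < n := by omega
    exact_mod_cast this
  positivity

theorem le_rr_mul_tt (n : ℕ) (hn : 2 ≤ n) : n ≤ rr n * tt n := by
  have ht : 2 ≤ tt n := two_le_tt n hn
  have htpos : (0 : ℝ) < (tt n : ℝ) := by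
    have : 0 < tt n := by omega
    exact_mod_cast this
  have h : (n : ℝ) / (tt n : ℝ) ≤ (rr n : ℝ) := Nat.le_ceil _
  rw [div_le_iff₀ htpos] at h
  exact_mod_cast h

theorem pred_rr_mul_tt_lt (n : ℕ) (hn : 2 ≤ n) : (rr n - 1) * tt n < n := by
  have ht : 2 ≤ tt n := two_le_tt n hn
  have hr : 1 ≤ rr n := one_le_rr n hn
  have htpos : (0 : ℝ) < (tt n : ℝ) := by
    have : 0 < tt n := by omega
    exact_mod_cast this
  have hnn : (0 : ℝ) ≤ (n : ℝ) / (tt n : ℝ) := by positivity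
  have h : (rr n : ℝ) < (n : ℝ) / (tt n : ℝ) + 1 := Nat.ceil_lt_add_one hnn
  have h2 : ((rr n : ℝ) - 1) * (tt n : ℝ) < n := by
    have : (rr n : ℝ) - 1 < (n : ℝ) / (tt n : ℝ) := by linarith
    rwa [lt_div_iff₀ htpos] at this
  have h3 : ((rr n - 1 : ℕ) : ℝ) = (rr n : ℝ) - 1 := by
    rw [Nat.cast_sub hr]; simp
  have h4 : (((rr n - 1) * tt n : ℕ) : ℝ) < (n : ℝ) := by
    rw [Nat.cast_mul, h3]; exact h2
  exact_mod_cast h4

/-- the purely natural-number inequality for `n ≥ 3`. -/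
theorem nat_bound (n t r : ℕ) (hn : 3 ≤ n) (ht : 2 ≤ t) (hrn : r ≤ n) (hrt : r ≤ t) :
    2 * n ^ 3 + r * n ^ 2 + r * n ^ (t + 1) + n ^ (r - 1) + 1 ≤ n ^ (t + 3) := by
  obtain ⟨k, rfl⟩ : ∃ k, t = k + 2 := ⟨t - 2, by omega⟩
  have hn1 : 1 ≤ n := by omega
  have hk : 1 ≤ n ^ k := Nat.one_le_pow _ _ (by omega)
  -- all terms are bounded by multiples of n^(k+1)
  have e1 : 2 * n ^ 3 ≤ 2 * n ^ 3 * n ^ k := Nat.le_mul_of_pos_right _ (by omega)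
  have e2 : r * n ^ 2 ≤ n ^ 3 * n ^ k := by
    calc r * n ^ 2 ≤ n * n ^ 2 := Nat.mul_le_mul_right _ hrn
      _ = n ^ 3 := by ring
      _ ≤ n ^ 3 * n ^ k := Nat.le_mul_of_pos_right _ (by omega)
  have e3 : r * n ^ (k + 2 + 1) ≤ n ^ 4 * n ^ k := by
    calc r * n ^ (k + 2 + 1) ≤ n * n ^ (k + 2 + 1) := Nat.mul_le_mul_right _ hrn
      _ = n ^ 4 * n ^ k := by ring
  have e4 : n ^ (r - 1) ≤ n * n ^ k := by
    calc n ^ (r - 1) ≤ n ^ (k + 1) := Nat.pow_le_pow_right hn1 (by omega)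
      _ = n * n ^ k := by ring
  have e5 : (1 : ℕ) ≤ n ^ k := hk
  have e6 : n ^ (k + 2 + 3) = n ^ 5 * n ^ k := by ring
  rw [e6]
  have key : 2 * n ^ 3 + n ^ 3 + n ^ 4 + n + 1 ≤ n ^ 5 := by
    obtain ⟨m, rfl⟩ : ∃ m, n = m + 3 := ⟨n - 3, by omega⟩
    ring_nf
    nlinarith [Nat.zero_le m, Nat.zero_le (m ^ 2), Nat.zero_le (m ^ 3), Nat.zero_le (m ^ 4),
      Nat.zero_le (m ^ 5)]
  calc 2 * n ^ 3 + r * n ^ 2 + r * n ^ (k + 2 + 1) + n ^ (r - 1) + 1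
      ≤ 2 * n ^ 3 * n ^ k + n ^ 3 * n ^ k + n ^ 4 * n ^ k + n * n ^ k + n ^ k := by omega
    _ = (2 * n ^ 3 + n ^ 3 + n ^ 4 + n + 1) * n ^ k := by ring
    _ ≤ n ^ 5 * n ^ k := Nat.mul_le_mul_right _ key

theorem tt_two : tt 2 = 2 := by
  have h1 := two_le_tt 2 le_rfl
  have h2 := tt_le 2 (by norm_num)
  omega

theorem rr_two : rr 2 = 1 := by
  have h1 := one_le_rr 2 le_rfl
  have h2 := pred_rr_mul_tt_lt 2 le_rfl
  rw [tt_two] at h2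
  omega

/-- natural-number form, all `n ≥ 2`. -/
theorem nat_bound' (n : ℕ) (hn : 2 ≤ n) :
    2 * n ^ 3 + rr n * n ^ 2 + rr n * n ^ (tt n + 1) + n ^ (rr n - 1) + 1 ≤ n ^ (tt n + 3) := by
  rcases Nat.lt_or_ge n 3 with h | h
  · have : n = 2 := by omega
    subst this
    rw [tt_two, rr_two]
    norm_num
  · exact nat_bound n (tt n) (rr n) h (two_le_tt n hn)
      (le_trans (rr_le_tt n hn) (tt_le n (by omega))) (rr_le_tt n hn)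

/-- The size bound of S0505 (exactly the natural-number expression of the template, cast to `ℝ`). -/
theorem size_le_rpow (n : ℕ) (hn : 2 ≤ n) :
    ((2 * n ^ 3 + ⌈(n : ℝ) / ⌈Real.sqrt n⌉₊⌉₊ * n ^ 2 +
          ⌈(n : ℝ) / ⌈Real.sqrt n⌉₊⌉₊ * n ^ (⌈Real.sqrt n⌉₊ + 1) +
          n ^ (⌈(n : ℝ) / ⌈Real.sqrt n⌉₊⌉₊ - 1) + 1 : ℕ) : ℝ) ≤ (n : ℝ) ^ (Real.sqrt n + 4) := by
  have h := nat_bound' n hn
  have h1 : ((2 * n ^ 3 + rr n * n ^ 2 + rr n * n ^ (tt n + 1) + n ^ (rr n - 1) + 1 : ℕ) : ℝ)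
      ≤ ((n ^ (tt n + 3) : ℕ) : ℝ) := by exact_mod_cast h
  have hn1 : (1 : ℝ) ≤ n := by
    have : 1 ≤ n := by omega
    exact_mod_cast this
  have h2 : ((n ^ (tt n + 3) : ℕ) : ℝ) = (n : ℝ) ^ (((tt n + 3 : ℕ)) : ℝ) := by
    rw [Real.rpow_natCast]; push_cast; ring
  have h3 : (n : ℝ) ^ (((tt n + 3 : ℕ)) : ℝ) ≤ (n : ℝ) ^ (Real.sqrt n + 4) := by
    apply Real.rpow_le_rpow_of_exponent_le hn1
    have := tt_lt n
    push_cast
    linarith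
  exact le_trans h1 (h2 ▸ h3)

end Crest.Agent.S0505Aux
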