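import Mathlib

/-!
Numeric part of S0505 (helper87): the explicit size bound is at most `n ^ (√n + 4)`.
-/

namespace Crest.Agent.S0505Aux.Num87

theorem size_le_two :
    ((2 * 2 ^ 3 + ⌈((2 : ℕ) : ℝ) / ⌈Real.sqrt (2 : ℕ)⌉₊⌉₊ * 2 ^ 2 +
          ⌈((2 : ℕ) : ℝ) / ⌈Real.sqrt (2 : ℕ)⌉₊⌉₊ * 2 ^ (⌈Real.sqrt (2 : ℕ)⌉₊ + 1) +
          2 ^ (⌈((2 : ℕ) : ℝ) / ⌈Real.sqrt (2 : ℕ)⌉₊⌉₊ - 1) + 1 : ℕ) : ℝ) ≤
      ((2 : ℕ) : ℝ) ^ (Real.sqrt (2 : ℕ) + 4) := by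
  have h1 : (1 : ℝ) < Real.sqrt (2 : ℕ) := by
    rw [Real.lt_sqrt (by norm_num)]; norm_num
  have h2 : Real.sqrt (2 : ℕ) ≤ 2 := by
    rw [Real.sqrt_le_left (by norm_num)]; norm_num
  have ht : ⌈Real.sqrt (2 : ℕ)⌉₊ = 2 := by
    rw [Nat.ceil_eq_iff (by norm_num)]
    constructor
    · simpa using h1
    · simp
  have hr : ⌈((2 : ℕ) : ℝ) / ((2 : ℕ) : ℝ)⌉₊ = 1 := by
    norm_num
  rw [ht, hr]
  have h5 : ((2 : ℕ) : ℝ) ^ ((5 : ℕ) : ℝ) ≤ ((2 : ℕ) : ℝ) ^ (Real.sqrt (2 : ℕ) + 4) := by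
    apply Real.rpow_le_rpow_of_exponent_le (by norm_num)
    have h1' := h1
    push_cast at h1' ⊢
    linarith
  rw [Real.rpow_natCast] at h5
  refine le_trans ?_ h5
  norm_num

theorem size_le (n : ℕ) (hn : 2 ≤ n) :
    ((2 * n ^ 3 + ⌈(n : ℝ) / ⌈Real.sqrt n⌉₊⌉₊ * n ^ 2 +
          ⌈(n : ℝ) / ⌈Real.sqrt n⌉₊⌉₊ * n ^ (⌈Real.sqrt n⌉₊ + 1) +
          n ^ (⌈(n : ℝ) / ⌈Real.sqrt n⌉₊⌉₊ - 1) + 1 : ℕ) : ℝ) ≤
      (n : ℝ) ^ (Real.sqrt n + 4) := by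
  rcases Nat.lt_or_ge n 3 with h3 | h3
  · have : n = 2 := by omega
    subst this
    exact size_le_two
  set t := ⌈Real.sqrt n⌉₊ with ht
  set r := ⌈(n : ℝ) / t⌉₊ with hr
  have hx3 : (3 : ℝ) ≤ n := by exact_mod_cast h3
  have hx1 : (1 : ℝ) ≤ n := by linarith
  have hx0 : (0 : ℝ) < n := by linarith
  have hs0 : 0 ≤ Real.sqrt n := Real.sqrt_nonneg _
  have hss : Real.sqrt n * Real.sqrt n = n := Real.mul_self_sqrt (by linarith)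
  have hs1 : (1 : ℝ) < Real.sqrt n := by
    rw [Real.lt_sqrt (by norm_num)]; linarith
  have ht_ge : Real.sqrt n ≤ t := Nat.le_ceil _
  have ht_lt : (t : ℝ) < Real.sqrt n + 1 := Nat.ceil_lt_add_one hs0
  have ht2 : 2 ≤ t := by
    have : (1 : ℝ) < t := lt_of_lt_of_le hs1 ht_ge
    have : 1 < t := by exact_mod_cast this
    omega
  have htpos : (0 : ℝ) < t := by linarith
  have hr_le : r ≤ t := by
    rw [hr, Nat.ceil_le, div_le_iff₀ htpos]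
    nlinarith
  -- t ≤ n - 1
  have ht_le : t + 1 ≤ n := by
    have h : Real.sqrt n ≤ ((n - 1 : ℕ) : ℝ) := by
      rw [Real.sqrt_le_left (by positivity)]
      have : ((n - 1 : ℕ) : ℝ) = (n : ℝ) - 1 := by
        rw [Nat.cast_sub (by omega)]; simp
      rw [this]
      nlinarith
    have : t ≤ n - 1 := by
      rw [ht]; exact Nat.ceil_le.mpr h
    omega
  set A : ℝ := (n : ℝ) ^ (Real.sqrt n + 2) with hA
  have hpow : ∀ k : ℕ, k ≤ t + 1 → (n : ℝ) ^ k ≤ A := by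
    intro k hk
    rw [hA, ← Real.rpow_natCast]
    apply Real.rpow_le_rpow_of_exponent_le hx1
    have : (k : ℝ) ≤ (t : ℝ) + 1 := by exact_mod_cast hk
    linarith
  have hA0 : 0 ≤ A := by positivity
  have hfin : (n : ℝ) ^ (Real.sqrt n + 4) = A * (n : ℝ) ^ 2 := by
    rw [hA, ← Real.rpow_natCast, ← Real.rpow_add hx0]
    congr 1
    push_cast
    ring
  rw [hfin]
  push_cast
  have e1 : (n : ℝ) ^ 3 ≤ A := hpow 3 (by omega)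
  have e2 : (n : ℝ) ^ 2 ≤ A := hpow 2 (by omega)
  have e3 : (n : ℝ) ^ (t + 1) ≤ A := hpow (t + 1) le_rfl
  have e4 : (n : ℝ) ^ (r - 1) ≤ A := hpow (r - 1) (by omega)
  have e5 : (1 : ℝ) ≤ A := by simpa using hpow 0 (by omega)
  have hrt : (r : ℝ) ≤ t := by exact_mod_cast hr_le
  have hr0 : (0 : ℝ) ≤ r := by positivity
  have htn : (t : ℝ) + 1 ≤ n := by exact_mod_cast ht_le
  have f2 : (r : ℝ) * (n : ℝ) ^ 2 ≤ t * A := mul_le_mul hrt e2 (by positivity) (by positivity)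
  have f3 : (r : ℝ) * (n : ℝ) ^ (t + 1) ≤ t * A := mul_le_mul hrt e3 (by positivity) (by positivity)
  have key : (2 * (t : ℝ) + 4) ≤ (n : ℝ) ^ 2 := by nlinarith
  calc 2 * (n : ℝ) ^ 3 + r * (n : ℝ) ^ 2 + r * (n : ℝ) ^ (t + 1) + (n : ℝ) ^ (r - 1) + 1
      ≤ 2 * A + t * A + t * A + A + A := by linarith
    _ = A * (2 * (t : ℝ) + 4) := by ring
    _ ≤ A * (n : ℝ) ^ 2 := mul_le_mul_of_nonneg_left key hA0

end Crest.Agent.S0505Aux.Num87
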