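import Mathlib

/-!
Path expansion of an entry of a product of a list of square matrices (helper43, for S0505).
-/

set_option autoImplicit false

namespace Crest.Agent.S0505Aux.Path43

open Matrix

variable {R : Type*} [CommSemiring R] {n : ℕ}

/-- Path expansion, `if`-form. -/
theorem prod_ofFn_apply_ite (m : ℕ) (A : Fin m → Matrix (Fin n) (Fin n) R) (i j : Fin n) :
    (List.ofFn A).prod i j =
      ∑ q : Fin (m + 1) → Fin n, if q 0 = i ∧ q (Fin.last m) = j then
        ∏ a : Fin m, A a (q a.castSucc) (q a.succ) else 0 := by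
  induction m generalizing i with
  | zero =>
    simp only [List.ofFn_zero, List.prod_nil, Finset.univ_eq_empty, Finset.prod_empty,
      Fin.last_zero]
    rw [Matrix.one_apply]
    rw [← (Equiv.funUnique (Fin 1) (Fin n)).symm.sum_comp]
    by_cases h : i = j
    · subst h
      simp [Equiv.funUnique]
    · have : ∀ x : Fin n, ¬ (x = i ∧ x = j) := fun x hx => h (hx.1.symm.trans hx.2)
      simp [Equiv.funUnique, h, this]
  | succ m ih =>
    rw [List.ofFn_succ, List.prod_cons, Matrix.mul_apply]
    simp_rw [ih]
    rw [← (Fin.consEquiv (fun _ => Fin n)).sum_comp, Fintype.sum_prod_type]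
    have hlast : ∀ (x : Fin n) (y : Fin (m + 1) → Fin n),
        (Fin.cons x y : Fin (m + 2) → Fin n) (Fin.last (m + 1)) = y (Fin.last m) := by
      intro x y
      rw [← Fin.succ_last, Fin.cons_succ]
    have hstep : ∀ (x : Fin n) (y : Fin (m + 1) → Fin n),
        (∏ a : Fin (m + 1), A a ((Fin.cons x y : Fin (m + 2) → Fin n) a.castSucc)
          ((Fin.cons x y : Fin (m + 2) → Fin n) a.succ)) =
        A 0 x (y 0) * ∏ a : Fin m, A a.succ (y a.castSucc) (y a.succ) := by
      intro x y
      rw [Fin.prod_univ_succ]
      congr 1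
    simp only [Fin.consEquiv_apply, Fin.cons_zero, hlast, hstep]
    have hL : (∑ x, A 0 i x * ∑ q : Fin (m + 1) → Fin n,
          if q 0 = x ∧ q (Fin.last m) = j then ∏ a : Fin m, A a.succ (q a.castSucc) (q a.succ) else 0) =
        ∑ y : Fin (m + 1) → Fin n, if y (Fin.last m) = j then
          A 0 i (y 0) * ∏ a : Fin m, A a.succ (y a.castSucc) (y a.succ) else 0 := by
      simp only [Finset.mul_sum]
      rw [Finset.sum_comm]
      refine Finset.sum_congr rfl fun y _ => ?_
      rw [Finset.sum_eq_single (y 0)]
      · by_cases hy : y (Fin.last m) = j <;> simp [hy]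
      · intro b _ hb
        have : ¬ (y 0 = b ∧ y (Fin.last m) = j) := fun h => hb h.1.symm
        simp [this]
      · intro h; exact absurd (Finset.mem_univ _) h
    have hR : (∑ x : Fin n, ∑ y : Fin (m + 1) → Fin n,
          if x = i ∧ y (Fin.last m) = j then
            A 0 x (y 0) * ∏ a : Fin m, A a.succ (y a.castSucc) (y a.succ) else 0) =
        ∑ y : Fin (m + 1) → Fin n, if y (Fin.last m) = j then
          A 0 i (y 0) * ∏ a : Fin m, A a.succ (y a.castSucc) (y a.succ) else 0 := by
      rw [Finset.sum_eq_single i]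
      · simp
      · intro b _ hb
        refine Finset.sum_eq_zero fun y _ => ?_
        have : ¬ (b = i ∧ y (Fin.last m) = j) := fun h => hb h.1
        simp [this]
      · intro h; exact absurd (Finset.mem_univ _) h
    rw [hL, hR]

/-- (P1) Path expansion, `filter`-form. -/
theorem prod_ofFn_apply (m : ℕ) (A : Fin m → Matrix (Fin n) (Fin n) R) (i j : Fin n) :
    (List.ofFn A).prod i j =
      ∑ q ∈ (Finset.univ : Finset (Fin (m + 1) → Fin n)).filter
          (fun q => q 0 = i ∧ q (Fin.last m) = j),
        ∏ a : Fin m, A a (q a.castSucc) (q a.succ) := by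
  rw [prod_ofFn_apply_ite, Finset.sum_filter]

/-- (P2) Path expansion over the interior vertices only. -/
theorem prod_ofFn_apply_interior (k : ℕ) (A : Fin (k + 1) → Matrix (Fin n) (Fin n) R)
    (i j : Fin n) :
    (List.ofFn A).prod i j =
      ∑ q : Fin k → Fin n, ∏ a : Fin (k + 1),
        A a ((Fin.cons i (Fin.snoc q j) : Fin (k + 2) → Fin n) a.castSucc)
          ((Fin.cons i (Fin.snoc q j) : Fin (k + 2) → Fin n) a.succ) := by
  induction k generalizing i with
  | zero =>
    rw [List.ofFn_succ, List.ofFn_zero, List.prod_cons, List.prod_nil, mul_one]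
    rw [Fintype.sum_unique, Fin.prod_univ_one]
    rfl
  | succ k ih =>
    rw [List.ofFn_succ, List.prod_cons, Matrix.mul_apply]
    simp_rw [ih]
    rw [← (Fin.consEquiv (fun _ => Fin n)).sum_comp, Fintype.sum_prod_type]
    refine Finset.sum_congr rfl fun x _ => ?_
    rw [Finset.mul_sum]
    refine Finset.sum_congr rfl fun q _ => ?_
    have e : (Fin.consEquiv (fun _ => Fin n)) (x, q) = (Fin.cons x q : Fin (k + 1) → Fin n) := rfl
    rw [e, ← Fin.cons_snoc_eq_snoc_cons]
    conv_rhs => rw [Fin.prod_univ_succ]
    congr 1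

section Seg

variable {M : Type*} [Monoid M]

/-- product of `f a, f (a+1), …, f (a+l-1)` in this order -/
def seg (f : ℕ → M) (a l : ℕ) : M := ((List.range' a l).map f).prod

theorem seg_zero (f : ℕ → M) (a : ℕ) : seg f a 0 = 1 := by simp [seg]

theorem seg_add (f : ℕ → M) (a l₁ l₂ : ℕ) :
    seg f a (l₁ + l₂) = seg f a l₁ * seg f (a + l₁) l₂ := by
  unfold seg
  rw [← List.prod_append, ← List.map_append, List.range'_append_1]

theorem seg_eq_ofFn (f : ℕ → M) (a l : ℕ) :
    seg f a l = (List.ofFn (fun b : Fin l => f (a + b))).prod := by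
  induction l generalizing a with
  | zero => simp [seg]
  | succ l ih =>
    have h1 : seg f a (l + 1) = seg f a 1 * seg f (a + 1) l := by
      rw [add_comm l 1, seg_add]
    rw [List.ofFn_succ, List.prod_cons, h1, ih]
    congr 1
    · simp [seg]
    · congr 2
      funext b
      simp [add_assoc, add_comm 1]

/-- extension of a finite family by `1` -/
def ext1 {n : ℕ} (A : Fin n → M) (k : ℕ) : M := if h : k < n then A ⟨k, h⟩ else 1

theorem prod_ofFn_eq_seg {n : ℕ} (A : Fin n → M) : (List.ofFn A).prod = seg (ext1 A) 0 n := by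
  rw [seg_eq_ofFn]
  congr 2
  funext b
  simp [ext1]

/-- (P3) splitting into `r` consecutive blocks of length `t` (the last ones cut off at `n`). -/
theorem prod_blocks (f : ℕ → M) (t n r : ℕ) :
    (List.ofFn (fun c : Fin r => seg f (c * t) (min t (n - c * t)))).prod
      = seg f 0 (min (r * t) n) := by
  induction r with
  | zero => simp [seg]
  | succ r ih =>
    rw [List.ofFn_succ', List.concat_eq_append, List.prod_append, List.prod_singleton]
    simp only [Fin.val_castSucc, Fin.val_last]
    rw [ih]
    rcases le_total (r * t) n with h | h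
    · have e1 : min (r * t) n = r * t := min_eq_left h
      have e2 : min ((r + 1) * t) n = r * t + min t (n - r * t) := by
        rw [add_mul, one_mul]
        rcases le_total t (n - r * t) with h2 | h2
        · rw [min_eq_left h2, min_eq_left (by omega)]
        · rw [min_eq_right h2, min_eq_right (by omega)]; omega
      rw [e1, e2, seg_add, zero_add]
    · have e1 : min (r * t) n = n := min_eq_right h
      have e3 : n - r * t = 0 := by omega
      have e2 : min ((r + 1) * t) n = n := by
        rw [add_mul, one_mul]; exact min_eq_right (by omega)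
      rw [e1, e2, e3, Nat.min_zero, seg_zero, mul_one]

/-- (P3') the product of `A 0, …, A (n-1)` is the product of its `r` blocks of length `≤ t`. -/
theorem prod_ofFn_eq_blocks {n : ℕ} (A : Fin n → M) (t r : ℕ) (h : n ≤ r * t) :
    (List.ofFn A).prod =
      (List.ofFn (fun c : Fin r =>
        (List.ofFn (fun b : Fin (min t (n - c * t)) => ext1 A (c * t + b))).prod)).prod := by
  have h1 := prod_blocks (ext1 A) t n r
  rw [min_eq_right h] at h1
  rw [prod_ofFn_eq_seg, ← h1]
  congr 2
  funext c
  rw [seg_eq_ofFn]

end Seg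

end Crest.Agent.S0505Aux.Path43
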