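import Mathlib

/-!
Matrix lemmas for S0505 (helper77): path expansion of an ordered product of matrices and
splitting of the product into blocks of equal length (padding by identity matrices).
-/

set_option autoImplicit false

namespace Crest.Agent.S0505Aux.Path77

open Finset

variable {A : Type*} [CommSemiring A] {n : ℕ}

/-- (A) Path expansion, indicator form. -/
theorem prod_ofFn_apply (t : ℕ) : ∀ (N : Fin t → Matrix (Fin n) (Fin n) A) (i j : Fin n),
    (List.ofFn N).prod i j =
      ∑ v : Fin (t + 1) → Fin n,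
        if v 0 = i ∧ v (Fin.last t) = j then ∏ m : Fin t, N m (v m.castSucc) (v m.succ)
        else 0 := by
  induction t with
  | zero =>
    intro N i j
    rw [← (Equiv.funUnique (Fin 1) (Fin n)).symm.sum_comp]
    rw [Finset.sum_eq_single i]
    · simp [Matrix.one_apply]
    · intro b _ hb
      simp [hb]
    · simp
  | succ t ih =>
    intro N i j
    rw [List.ofFn_succ, List.prod_cons, Matrix.mul_apply]
    simp_rw [ih, Finset.mul_sum]
    rw [Finset.sum_comm]
    conv_rhs =>
      rw [← (Fin.consEquiv (fun _ => Fin n)).sum_comp, Fintype.sum_prod_type, Finset.sum_comm]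
    refine Finset.sum_congr rfl fun v _ => ?_
    rw [Finset.sum_eq_single (v 0), Finset.sum_eq_single i]
    · simp [Fin.prod_univ_succ, Fin.consEquiv]
    · intro b _ hb
      simp [Fin.consEquiv, hb]
    · simp
    · intro b _ hb
      simp [Ne.symm hb]
    · simp

/-- Collapsing the two end-point indicators. -/
theorem sum_endpoints {M : Type*} [AddCommMonoid M] (t : ℕ) (F : (Fin (t + 2) → Fin n) → M)
    (i j : Fin n) :
    (∑ v : Fin (t + 2) → Fin n, if v 0 = i ∧ v (Fin.last (t + 1)) = j then F v else 0) =
      ∑ u : Fin t → Fin n,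
        F (Fin.cons i (Fin.snoc u j : Fin (t + 1) → Fin n) : Fin (t + 2) → Fin n) := by
  rw [← (Fin.consEquiv (fun _ => Fin n)).sum_comp, Fintype.sum_prod_type,
    Finset.sum_eq_single i]
  · rw [← (Fin.snocEquiv (fun _ => Fin n)).sum_comp, Fintype.sum_prod_type,
      Finset.sum_eq_single j]
    · refine Finset.sum_congr rfl fun u _ => ?_
      simp [Fin.consEquiv, Fin.snocEquiv]
    · intro b _ hb
      simp [Fin.consEquiv, Fin.snocEquiv, hb]
    · simp
  · intro b _ hb
    simp [Fin.consEquiv, hb]
  · simp

/-- (B) Path expansion, interior form: `t + 1` matrices, the `t` interior vertices are free. -/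
theorem prod_ofFn_apply_interior (t : ℕ) (N : Fin (t + 1) → Matrix (Fin n) (Fin n) A)
    (i j : Fin n) :
    (List.ofFn N).prod i j =
      ∑ u : Fin t → Fin n, ∏ m : Fin (t + 1),
        N m ((Fin.cons i (Fin.snoc u j : Fin (t + 1) → Fin n) : Fin (t + 2) → Fin n) m.castSucc)
          ((Fin.cons i (Fin.snoc u j : Fin (t + 1) → Fin n) : Fin (t + 2) → Fin n) m.succ) := by
  rw [prod_ofFn_apply (t + 1) N i j]
  exact sum_endpoints t (fun v => ∏ m : Fin (t + 1), N m (v m.castSucc) (v m.succ)) i j

/-- (C) Splitting into `r` blocks of length `t`, padding with identity matrices. -/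
theorem prod_ofFn_blocks {k : ℕ} (M : Fin k → Matrix (Fin n) (Fin n) A) (r t : ℕ)
    (h : k ≤ r * t) :
    (List.ofFn M).prod =
      (List.ofFn fun a : Fin r =>
        (List.ofFn fun m : Fin t =>
          if h : (a : ℕ) * t + (m : ℕ) < k then M ⟨(a : ℕ) * t + (m : ℕ), h⟩ else 1).prod).prod := by
  obtain ⟨e, he⟩ := Nat.exists_eq_add_of_le h
  have h1 : (List.ofFn fun x : Fin (r * t) =>
      if h : (x : ℕ) < k then M ⟨(x : ℕ), h⟩ else (1 : Matrix (Fin n) (Fin n) A)).prod =
      (List.ofFn M).prod := by
    rw [List.ofFn_congr he, List.ofFn_add, List.prod_append]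
    have h2 : (List.ofFn fun i : Fin e =>
        if h : ((Fin.cast he.symm (Fin.natAdd k i) : Fin (r * t)) : ℕ) < k then
          M ⟨((Fin.cast he.symm (Fin.natAdd k i) : Fin (r * t)) : ℕ), h⟩
        else (1 : Matrix (Fin n) (Fin n) A)) = List.ofFn fun _ : Fin e => 1 := by
      congr 1
      funext i
      simp
    have h3 : ∀ hle : k ≤ k + e, (List.ofFn fun i : Fin k =>
        if h : ((Fin.cast he.symm (Fin.castLE hle i) : Fin (r * t)) : ℕ) < k then
          M ⟨((Fin.cast he.symm (Fin.castLE hle i) : Fin (r * t)) : ℕ), h⟩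
        else (1 : Matrix (Fin n) (Fin n) A)) = List.ofFn M := by
      intro hle
      congr 1
      funext i
      simp
    rw [h2, h3, List.ofFn_const, List.prod_replicate, one_pow, mul_one]
  rw [← h1, List.ofFn_mul, List.prod_flatten, List.map_ofFn]
  rfl

end Crest.Agent.S0505Aux.Path77
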