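import Mathlib
import Crest.Prelude.Def_SPSPS

set_option autoImplicit false

namespace Crest.Agent.S0505Aux83

open Matrix

variable {R : Type*} [CommSemiring R] {n : ℕ}

/-- Block splitting of an ordered product over `Fin (r * t)`. -/
theorem ofFn_mul_prod {M : Type*} [Monoid M] (r t : ℕ) (A : Fin (r * t) → M) :
    (List.ofFn A).prod =
      (List.ofFn (fun c : Fin r => (List.ofFn (fun u : Fin t =>
        A ⟨c * t + u, by
          calc (c : ℕ) * t + u < c * t + t := by have := u.2; omega
            _ = (c + 1) * t := by ring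
            _ ≤ r * t := Nat.mul_le_mul_right _ c.2⟩)).prod)).prod := by
  rw [List.ofFn_mul, List.prod_flatten, List.map_ofFn]
  rfl

/-- Padding an ordered product with units. -/
theorem ofFn_pad_prod {M : Type*} [Monoid M] (n' : ℕ) (A : Fin n' → M) :
    ∀ (e : ℕ), (List.ofFn (fun k : Fin (n' + e) => if hk : (k : ℕ) < n' then A ⟨k, hk⟩ else 1)).prod
      = (List.ofFn A).prod := by
  intro e
  induction e with
  | zero =>
    congr 1
    apply congrArg
    funext k
    simp
  | succ e ih =>
    have : (List.ofFn (fun k : Fin (n' + e + 1) => if hk : (k : ℕ) < n' then A ⟨k, hk⟩ else 1)).prod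
        = (List.ofFn (fun k : Fin (n' + e) => if hk : (k : ℕ) < n' then A ⟨k, hk⟩ else 1)).prod := by
      rw [List.ofFn_succ', List.concat_eq_append, List.prod_append]
      simp
    exact this.trans ih


theorem ofFn_prod_apply_aux (m : ℕ) : ∀ (A : Fin m → Matrix (Fin n) (Fin n) R) (i j : Fin n),
    (List.ofFn A).prod i j =
      ∑ π : Fin (m + 1) → Fin n, if π 0 = i ∧ π (Fin.last m) = j then
        ∏ u : Fin m, A u (π u.castSucc) (π u.succ) else 0 := by
  induction m with
  | zero =>
    intro A i j
    rw [← (Equiv.funUnique (Fin 1) (Fin n)).symm.sum_comp]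
    simp only [List.ofFn_zero, List.prod_nil, Matrix.one_apply, Finset.univ_eq_empty,
      Finset.prod_empty]
    have : ∀ k : Fin n, (((Equiv.funUnique (Fin 1) (Fin n)).symm k) 0 = i ∧
        ((Equiv.funUnique (Fin 1) (Fin n)).symm k) (Fin.last 0) = j) ↔ (k = i ∧ k = j) := by
      intro k; rfl
    simp only [this]
    by_cases h : i = j
    · subst h
      simp
    · have : ∀ k : Fin n, ¬ (k = i ∧ k = j) := by
        rintro k ⟨rfl, rfl⟩; exact h rfl
      simp [h, this]
  | succ m ih =>
    intro A i j
    rw [List.ofFn_succ, List.prod_cons, Matrix.mul_apply]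
    rw [← (Fin.consEquiv (fun _ : Fin (m + 2) => Fin n)).sum_comp, Fintype.sum_prod_type]
    simp only [ih]
    have key : ∀ (a : Fin n) (π' : Fin (m + 1) → Fin n),
        (if (Fin.consEquiv (fun _ : Fin (m + 2) => Fin n) (a, π')) 0 = i ∧
            (Fin.consEquiv (fun _ : Fin (m + 2) => Fin n) (a, π')) (Fin.last (m + 1)) = j then
          ∏ u : Fin (m + 1), A u ((Fin.consEquiv (fun _ : Fin (m + 2) => Fin n) (a, π')) u.castSucc)
            ((Fin.consEquiv (fun _ : Fin (m + 2) => Fin n) (a, π')) u.succ) else 0) =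
        if a = i then (if π' (Fin.last m) = j then
          A 0 a (π' 0) * ∏ u : Fin m, A u.succ (π' u.castSucc) (π' u.succ) else 0) else 0 := by
      intro a π'
      have h0 : (Fin.consEquiv (fun _ : Fin (m + 2) => Fin n) (a, π')) 0 = a := rfl
      have hs : ∀ v : Fin (m + 1), (Fin.consEquiv (fun _ : Fin (m + 2) => Fin n) (a, π')) v.succ = π' v := by
        intro v; simp [Fin.consEquiv]
      have hl : (Fin.consEquiv (fun _ : Fin (m + 2) => Fin n) (a, π')) (Fin.last (m + 1)) = π' (Fin.last m) := by
        rw [← Fin.succ_last]; exact hs _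
      rw [h0, hl, Fin.prod_univ_succ]
      have hc : ∀ v : Fin m, (Fin.consEquiv (fun _ : Fin (m + 2) => Fin n) (a, π')) v.succ.castSucc = π' v.castSucc := by
        intro v; rw [← Fin.succ_castSucc]; exact hs _
      simp only [hs, hc, Fin.castSucc_zero, h0]
      by_cases h1 : a = i <;> by_cases h2 : π' (Fin.last m) = j <;> simp [h1, h2]
    simp only [key]
    trans (∑ π' : Fin (m + 1) → Fin n, if π' (Fin.last m) = j then
          A 0 i (π' 0) * ∏ u : Fin m, A u.succ (π' u.castSucc) (π' u.succ) else 0)
    · simp only [Finset.mul_sum]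
      rw [Finset.sum_comm]
      apply Finset.sum_congr rfl
      intro π _
      rw [Finset.sum_eq_single (π 0)]
      · by_cases h2 : π (Fin.last m) = j <;> simp [h2]
      · intro b _ hb
        have : ¬ (π 0 = b ∧ π (Fin.last m) = j) := fun h => hb h.1.symm
        simp [this]
      · intro h; exact absurd (Finset.mem_univ _) h
    · rw [Finset.sum_comm]
      apply Finset.sum_congr rfl
      intro π _
      rw [Finset.sum_ite_eq']
      simp

/-- Path expansion of an entry of an ordered product of matrices. -/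
theorem ofFn_prod_apply_eq_sum_paths (m : ℕ) (A : Fin m → Matrix (Fin n) (Fin n) R) (i j : Fin n) :
    (List.ofFn A).prod i j =
      ∑ π ∈ (Finset.univ : Finset (Fin (m + 1) → Fin n)).filter
          (fun π => π 0 = i ∧ π (Fin.last m) = j),
        ∏ u : Fin m, A u (π u.castSucc) (π u.succ) := by
  rw [ofFn_prod_apply_aux, Finset.sum_filter]


/-- Padding an ordered product with units, arbitrary length `N ≥ n'`. -/
theorem ofFn_pad_prod' {M : Type*} [Monoid M] (n' : ℕ) (A : Fin n' → M) (N : ℕ) (h : n' ≤ N) :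
    (List.ofFn (fun k : Fin N => if hk : (k : ℕ) < n' then A ⟨k, hk⟩ else 1)).prod
      = (List.ofFn A).prod := by
  obtain ⟨e, rfl⟩ := Nat.exists_eq_add_of_le h
  exact ofFn_pad_prod n' A e

open MvPolynomial in
/-- The entry of the `q`-th padded variable matrix (identity matrix beyond the `k+1` real ones). -/
noncomputable def padEntry (K : Type*) [CommSemiring K] (k : ℕ) (q : ℕ) (a b : Fin (k + 1)) :
    MvPolynomial (Fin (k + 1) × Fin (k + 1) × Fin (k + 1)) K :=
  if hq : q < k + 1 then X (⟨q, hq⟩, a, b) else if a = b then 1 else 0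

/-- `imm` as a two-level sum over paths: `r` blocks of `t` (padded) matrices. -/
theorem imm_succ_eq_blocks (K : Type*) [CommSemiring K] (k r t : ℕ) (h : k + 1 ≤ r * t) :
    Crest.ArithCircuit.imm K (k + 1) =
      ∑ ρ ∈ (Finset.univ : Finset (Fin (r + 1) → Fin (k + 1))).filter
          (fun ρ => ρ 0 = 0 ∧ ρ (Fin.last r) = 0),
        ∏ c : Fin r,
          ∑ π ∈ (Finset.univ : Finset (Fin (t + 1) → Fin (k + 1))).filter
              (fun π => π 0 = ρ c.castSucc ∧ π (Fin.last t) = ρ c.succ),
            ∏ u : Fin t, padEntry K k (c * t + u) (π u.castSucc) (π u.succ) := by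
  have h1 : Crest.ArithCircuit.imm K (k + 1) =
      (List.ofFn (Crest.ArithCircuit.varMatrix K (k + 1))).prod 0 0 := rfl
  rw [h1, ← ofFn_pad_prod' (k + 1) (Crest.ArithCircuit.varMatrix K (k + 1)) (r * t) h,
    ofFn_mul_prod, ofFn_prod_apply_eq_sum_paths]
  apply Finset.sum_congr rfl
  intro ρ _
  apply Finset.prod_congr rfl
  intro c _
  rw [ofFn_prod_apply_eq_sum_paths]
  apply Finset.sum_congr rfl
  intro π _
  apply Finset.prod_congr rfl
  intro u _
  unfold padEntry
  by_cases hq : (c : ℕ) * t + u < k + 1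
  · simp [hq, Crest.ArithCircuit.varMatrix]
  · simp [hq, Matrix.one_apply]

end Crest.Agent.S0505Aux83
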