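import Crest.Prelude.Def_SPSPS

/-!
Generic transport of a depth-five circuit `SPSPS` along equivalences of its index types
(helper file for S0505): a circuit indexed by arbitrary finite types can be re-indexed by
`Fin (Fintype.card _)` without changing its output, homogeneity or size.
-/

set_option autoImplicit false

namespace Crest.Agent.S0505Aux.Transport5

open Crest.ArithCircuit MvPolynomial

variable {K ι L B P S R L' B' P' S' R' : Type*}

/-- Re-index a circuit along equivalences of the five index types. -/
def transport (C : SPSPS K ι L B P S R) (eL : L ≃ L') (eB : B ≃ B') (eP : P ≃ P')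
    (eS : S ≃ S') (eR : R ≃ R') : SPSPS K ι L' B' P' S' R' where
  leaf l := C.leaf (eL.symm l)
  inB b := (C.inB (eB.symm b)).map eL.toEmbedding
  coefB b l := C.coefB (eB.symm b) (eL.symm l)
  inP p := (C.inP (eP.symm p)).map eB
  inS s := (C.inS (eS.symm s)).map eP.toEmbedding
  coefS s p := C.coefS (eS.symm s) (eP.symm p)
  inR r := (C.inR (eR.symm r)).map eS
  inOut := C.inOut.map eR.toEmbedding
  coefOut r := C.coefOut (eR.symm r)

section vals

variable [CommSemiring K] (C : SPSPS K ι L B P S R) (eL : L ≃ L') (eB : B ≃ B') (eP : P ≃ P')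
    (eS : S ≃ S') (eR : R ≃ R')

theorem leafVal_transport (l : L') :
    (transport C eL eB eP eS eR).leafVal l = C.leafVal (eL.symm l) := rfl

theorem valB_transport (b : B') :
    (transport C eL eB eP eS eR).valB b = C.valB (eB.symm b) := by
  unfold SPSPS.valB
  simp only [transport, Finset.sum_map, Equiv.coe_toEmbedding, Equiv.symm_apply_apply,
    SPSPS.leafVal]

theorem valP_transport (p : P') :
    (transport C eL eB eP eS eR).valP p = C.valP (eP.symm p) := by
  unfold SPSPS.valP
  have : (transport C eL eB eP eS eR).inP p = (C.inP (eP.symm p)).map eB := rfl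
  rw [this, Multiset.map_map]
  congr 1
  refine Multiset.map_congr rfl fun b _ => ?_
  simp [valB_transport]

theorem valS_transport (s : S') :
    (transport C eL eB eP eS eR).valS s = C.valS (eS.symm s) := by
  unfold SPSPS.valS
  have h1 : (transport C eL eB eP eS eR).inS s = (C.inS (eS.symm s)).map eP.toEmbedding := rfl
  rw [h1, Finset.sum_map]
  refine Finset.sum_congr rfl fun p _ => ?_
  have h2 : (transport C eL eB eP eS eR).coefS s (eP.toEmbedding p) = C.coefS (eS.symm s) p := by
    simp [transport]
  rw [h2, valP_transport]
  simp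

theorem valR_transport (r : R') :
    (transport C eL eB eP eS eR).valR r = C.valR (eR.symm r) := by
  unfold SPSPS.valR
  have : (transport C eL eB eP eS eR).inR r = (C.inR (eR.symm r)).map eS := rfl
  rw [this, Multiset.map_map]
  congr 1
  refine Multiset.map_congr rfl fun b _ => ?_
  simp [valS_transport]

theorem output_transport :
    (transport C eL eB eP eS eR).output = C.output := by
  unfold SPSPS.output
  have h1 : (transport C eL eB eP eS eR).inOut = C.inOut.map eR.toEmbedding := rfl
  rw [h1, Finset.sum_map]
  refine Finset.sum_congr rfl fun p _ => ?_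
  have h2 : (transport C eL eB eP eS eR).coefOut (eR.toEmbedding p) = C.coefOut p := by
    simp [transport]
  rw [h2, valR_transport]
  simp

end vals

section degs

variable (C : SPSPS K ι L B P S R) (eL : L ≃ L') (eB : B ≃ B') (eP : P ≃ P')
    (eS : S ≃ S') (eR : R ≃ R')

theorem leafDeg_transport (l : L') :
    (transport C eL eB eP eS eR).leafDeg l = C.leafDeg (eL.symm l) := rfl

theorem degB_transport (b : B') :
    (transport C eL eB eP eS eR).degB b = C.degB (eB.symm b) := by
  unfold SPSPS.degB
  have h1 : (transport C eL eB eP eS eR).inB b = (C.inB (eB.symm b)).map eL.toEmbedding := rfl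
  rw [h1, Finset.sup_map]
  refine Finset.sup_congr rfl fun l _ => ?_
  simp [leafDeg_transport]

theorem degP_transport (p : P') :
    (transport C eL eB eP eS eR).degP p = C.degP (eP.symm p) := by
  unfold SPSPS.degP
  have : (transport C eL eB eP eS eR).inP p = (C.inP (eP.symm p)).map eB := rfl
  rw [this, Multiset.map_map]
  congr 1
  refine Multiset.map_congr rfl fun b _ => ?_
  simp [degB_transport]

theorem degS_transport (s : S') :
    (transport C eL eB eP eS eR).degS s = C.degS (eS.symm s) := by
  unfold SPSPS.degS
  have h1 : (transport C eL eB eP eS eR).inS s = (C.inS (eS.symm s)).map eP.toEmbedding := rfl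
  rw [h1, Finset.sup_map]
  refine Finset.sup_congr rfl fun l _ => ?_
  simp [degP_transport]

theorem degR_transport (r : R') :
    (transport C eL eB eP eS eR).degR r = C.degR (eR.symm r) := by
  unfold SPSPS.degR
  have : (transport C eL eB eP eS eR).inR r = (C.inR (eR.symm r)).map eS := rfl
  rw [this, Multiset.map_map]
  congr 1
  refine Multiset.map_congr rfl fun b _ => ?_
  simp [degS_transport]

theorem degOut_transport :
    (transport C eL eB eP eS eR).degOut = C.degOut := by
  unfold SPSPS.degOut
  have h1 : (transport C eL eB eP eS eR).inOut = C.inOut.map eR.toEmbedding := rfl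
  rw [h1, Finset.sup_map]
  refine Finset.sup_congr rfl fun l _ => ?_
  simp [degR_transport]

theorem isHomogeneous_transport (hC : C.IsHomogeneous) :
    (transport C eL eB eP eS eR).IsHomogeneous := by
  obtain ⟨h1, h2, h3⟩ := hC
  refine ⟨fun b l hl => ?_, fun s p hp => ?_, fun r hr => ?_⟩
  · have hl' : l ∈ (C.inB (eB.symm b)).map eL.toEmbedding := hl
    obtain ⟨l0, hl0, rfl⟩ := Finset.mem_map.1 hl'
    rw [leafDeg_transport, degB_transport]
    simpa using h1 _ _ hl0
  · have hp' : p ∈ (C.inS (eS.symm s)).map eP.toEmbedding := hp
    obtain ⟨p0, hp0, rfl⟩ := Finset.mem_map.1 hp'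
    rw [degP_transport, degS_transport]
    simpa using h2 _ _ hp0
  · have hr' : r ∈ C.inOut.map eR.toEmbedding := hr
    obtain ⟨r0, hr0, rfl⟩ := Finset.mem_map.1 hr'
    rw [degR_transport, degOut_transport]
    simpa using h3 _ hr0

end degs

/-- A homogeneous circuit on arbitrary finite index types can be re-indexed by initial segments
of `ℕ`, keeping its output; its size is the sum of the cardinalities plus one. -/
theorem exists_fin [CommSemiring K] [Fintype L] [Fintype B] [Fintype P] [Fintype S] [Fintype R]
    (C : SPSPS K ι L B P S R) (hC : C.IsHomogeneous) :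
    ∃ C' : SPSPS K ι (Fin (Fintype.card L)) (Fin (Fintype.card B)) (Fin (Fintype.card P))
        (Fin (Fintype.card S)) (Fin (Fintype.card R)),
      C'.IsHomogeneous ∧ C'.output = C.output ∧
        C'.size = Fintype.card L + Fintype.card B + Fintype.card P + Fintype.card S +
          Fintype.card R + 1 := by
  classical
  refine ⟨transport C (Fintype.equivFin L) (Fintype.equivFin B) (Fintype.equivFin P)
    (Fintype.equivFin S) (Fintype.equivFin R), isHomogeneous_transport _ _ _ _ _ _ hC,
    output_transport _ _ _ _ _ _, ?_⟩
  simp [SPSPS.size]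

/-- Variant with prescribed cardinalities. -/
theorem exists_fin_of_card [CommSemiring K] [Fintype L] [Fintype B] [Fintype P] [Fintype S]
    [Fintype R] (C : SPSPS K ι L B P S R) (hC : C.IsHomogeneous) {l b p s r : ℕ}
    (hl : Fintype.card L = l) (hb : Fintype.card B = b) (hp : Fintype.card P = p)
    (hs : Fintype.card S = s) (hr : Fintype.card R = r) :
    ∃ C' : SPSPS K ι (Fin l) (Fin b) (Fin p) (Fin s) (Fin r),
      C'.IsHomogeneous ∧ C'.output = C.output ∧ C'.size = l + b + p + s + r + 1 := by
  subst hl hb hp hs hr
  exact exists_fin C hC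

end Crest.Agent.S0505Aux.Transport5
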